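import Vale.Agent.P095.All.Orbit
import Vale.Agent.P095.Amen.End.Main

/-!
# P095: one group of positions for an action

`Q` source positions and one extra bank carrying the swap `W = θ(e₁₀)`; the mark is the product of
the mark of the first position and the mark of the extra bank.
-/

namespace Vale.Agent.P095.All.Endgame

open Vale.Agent.P101.KR Vale.Agent.P095.Amen Vale.Agent.P095.Amen.Endgame

noncomputable section

variable {F : Type} [CStarAlgebra F]

/-- Witnesses give a lower bound for every state. -/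
theorem dge_of_witness {z : F} {N : ℕ} (hN : 0 < N) {w : Fin N → F}
    (hw : ∑ i, star (w i) * (star z * z) * w i = 1) : DGe (star z * z) (1 / N) := by
  set S : Set F := insert z (Set.range w)
  have hz : PosIn (Cl S) (star z * z) := posIn_star_mul (subset_Cl S (Set.mem_insert _ _))
  refine ⟨S, (Set.countable_range _).insert _, hz, fun d => ?_⟩
  have h := d.mono (fun _ : Fin 1 => (1 : F)) (fun _ : Fin N => star z * z)
    (fun _ => ⟨one_mem _, 1, one_mem _, by simp⟩) (fun _ => hz)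
    (leIn_of_eq (fun j _ => w j)
      (fun j _ => subset_Cl S (Set.mem_insert_of_mem _ (Set.mem_range_self j))) fun i i' => by
        rw [if_pos (Subsingleton.elim i i'), hw])
  simp only [Finset.sum_const, Finset.card_univ, Fintype.card_fin, one_smul, d.one,
    nsmul_eq_mul] at h
  rw [div_le_iff₀ (by exact_mod_cast hN)]
  linarith

variable {G : Type} [Group G] [Countable G] {β : G → F ≃⋆ₐ[ℂ] F} {S₀ : Finset G}

/-- One group. -/
theorem exists_group_all (hC : CompareTarget) (hS : Setting β S₀) {Q : ℕ} (hQ : 0 < Q) {K : ℕ}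
    (hlt : (1 - 1 / (K + 1 : ℝ)) ^ Q < 1 / (((K + 1) * (K + 1) : ℕ) : ℝ)) {t : Set F}
    (φ : Fin Q → Cl t →⋆ₐ[ℂ] F) (ψ : Cl t →⋆ₐ[ℂ] F)
    (hφ : ∀ i j, i ≠ j → ∀ a b, Commute (φ i a) (φ j b))
    (hψ : ∀ i a b, Commute (φ i a) (ψ b))
    (hfix : ∀ i g, ∀ z : Cl t, β g z = z → β g (φ i z) = φ i z)
    (hfixψ : ∀ g, ∀ z : Cl t, β g z = z → β g (ψ z) = ψ z)
    {θ : Fin 2 → Fin 2 → Cl t} (hθ : OrderZero θ) {s e e' : Cl t} (hs : star s = s)
    (he : star e' = e') (hfe : ∀ g, β g e' = e') (hθe : θ 0 0 * e = e) (hse : s * e = 0)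
    (hee : e * e' = e') {w : Fin (K + 1) → Cl t}
    (hw : ∑ i, star (w i) * (star e' * e') * w i = 1) {η : ℝ} (hη : 0 < η) :
    let T := star (List.ofFn fun i => φ i s).prod * (List.ofFn fun i => φ i s).prod
    let W := ψ (θ 1 0)
    let E := φ ⟨0, hQ⟩ e
    ∃ m x : F, (∀ g, β g m = m) ∧ ‖x‖ ≤ 1 ∧ m * x = x ∧
      star x * x * bump η T = bump η T ∧ bump (η / 2 / 2) T * x = 0 ∧
      x * bump (η / 2 / 2) T = x ∧ star W * (W * m) = m ∧ star m * (W * m) = 0 ∧
      E * m = m ∧ E * (W * m) = W * m := by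
  intro T W E
  set S := (List.ofFn fun i => φ i s).prod with hSdef
  set A := φ ⟨0, hQ⟩ e' * ψ e' with hA
  set v := star A * A with hv
  have hAs : star A = A := by
    rw [hA, star_mul, ← map_star, ← map_star, he, (hψ _ _ _).eq]
  have hAfix : ∀ g, β g A = A := fun g => by
    rw [hA, map_mul, hfix _ g _ (hfe g), hfixψ g _ (hfe g)]
  -- values
  have hw1 := congrArg (φ ⟨0, hQ⟩) hw
  have hw2 := congrArg ψ hw
  simp only [map_sum, map_mul, map_star, map_one] at hw1 hw2
  let W₂ : Fin ((K + 1) * (K + 1)) → F := fun l => φ ⟨0, hQ⟩ (w l.divNat) * ψ (w l.modNat)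
  have hfull : ∑ l, star (W₂ l) * v * W₂ l = 1 := by
    calc ∑ l, star (W₂ l) * v * W₂ l
        = ∑ p : Fin (K + 1) × Fin (K + 1),
            star (φ ⟨0, hQ⟩ (w p.1) * ψ (w p.2)) * v * (φ ⟨0, hQ⟩ (w p.1) * ψ (w p.2)) := by
          refine (Fintype.sum_equiv finProdFinEquiv.symm _ _ fun l => ?_)
          rfl
      _ = ∑ i, ∑ j, (star (φ ⟨0, hQ⟩ (w i)) * (star (φ ⟨0, hQ⟩ e') * φ ⟨0, hQ⟩ e') *
            φ ⟨0, hQ⟩ (w i)) * (star (ψ (w j)) * (star (ψ e') * ψ e') * ψ (w j)) := by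
          rw [Fintype.sum_prod_type]
          refine Finset.sum_congr rfl fun i _ => Finset.sum_congr rfl fun j _ => ?_
          have e1 : A * (φ ⟨0, hQ⟩ (w i) * ψ (w j))
              = φ ⟨0, hQ⟩ (e' * w i) * ψ (e' * w j) := by
            rw [hA, (hψ _ _ _).symm.mul_mul_mul_comm, map_mul, map_mul]
          calc _ = star (A * (φ ⟨0, hQ⟩ (w i) * ψ (w j))) *
                (A * (φ ⟨0, hQ⟩ (w i) * ψ (w j))) := by simp only [hv, star_mul, mul_assoc]
            _ = star (φ ⟨0, hQ⟩ (e' * w i)) * φ ⟨0, hQ⟩ (e' * w i) *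
                (star (ψ (e' * w j)) * ψ (e' * w j)) := by
                rw [e1, star_mul, ← map_star, ← map_star, ← (hψ _ _ _).eq,
                  (hψ _ _ _).symm.mul_mul_mul_comm]
            _ = _ := by simp only [map_mul, star_mul, mul_assoc]
      _ = 1 := by
          simp only [← Finset.mul_sum, hw2, mul_one, hw1]
  obtain ⟨g₀, hg₀⟩ := exists_two_bump_eq (half_pos (half_pos hη)) S
  have hu : DLe ((2 : ℝ) • bump (η / 2 / 2) T) ((1 - 1 / (K + 1 : ℝ)) ^ Q) := by
    rw [show T = star S * S from rfl, hg₀]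
    have hse' : s * e' = 0 := by rw [← hee, ← mul_assoc, hse, zero_mul]
    exact dle_prod φ hφ hs hse' hw g₀
  obtain ⟨x₀, ρ, hρ, hxx, hx₀⟩ := hC F hS.hasCopies hS.central hS.noChar _ v _ _ 1 ⟨_, W₂, hfull⟩
    hu (dge_of_witness (by positivity) hfull) hlt one_pos
  have hvsa : IsSelfAdjoint v := IsSelfAdjoint.star_mul_self _
  obtain ⟨gv, hgv, -⟩ := exists_bump_eq_mul hρ hvsa
  obtain ⟨gv', -, hgv'⟩ := exists_bump_eq_mul hρ hvsa
  have hTsa : IsSelfAdjoint T := IsSelfAdjoint.star_mul_self _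
  obtain ⟨hcut, hcut1⟩ := cut_mul_bump (half_pos hη) hTsa
  obtain ⟨gT, -, hgT⟩ := exists_bump_eq_mul (half_pos (half_pos hη)) hTsa
  have hr : bump (η / 2) T * bump η T = bump η T := bump_mul_bump hη T
  have hr' : bump (η / 2 / 2) T * bump (η / 2) T = bump (η / 2) T := bump_mul_bump (half_pos hη) T
  set m := bump ρ v
  set x := x₀ * bump (η / 2) T
  have hmx : m * x = x := by rw [← mul_assoc, hx₀]
  have h00 : ∀ a b : Cl t, φ ⟨0, hQ⟩ a * φ ⟨0, hQ⟩ b = φ ⟨0, hQ⟩ (a * b) := fun a b =>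
    (map_mul _ _ _).symm
  have hEA : E * A = A := by
    rw [show E = φ ⟨0, hQ⟩ e from rfl, hA, ← mul_assoc, h00, hee]
  have hEW : Commute E W := hψ _ _ _
  have hm : E * m = m := by
    rw [hgv, ← mul_assoc, hv, hAs, ← mul_assoc E A A, hEA]
  refine ⟨m, x, fun g => map_cfc_eq (β g) hvsa ?_ (continuous_bumpFun ρ), ?_, hmx, ?_, ?_, ?_, ?_,
    ?_, hm, ?_⟩
  · rw [hv, map_mul, map_star, hAfix]
  · have h : ‖x₀‖ * ‖x₀‖ ≤ 1 := by rw [← CStarRing.norm_star_mul_self, hxx]; exact hcut1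
    exact (norm_mul_le _ _).trans (mul_le_one₀ (by nlinarith [norm_nonneg x₀]) (norm_nonneg _)
      (norm_bump_le _ _))
  · rw [star_mul, star_bump, mul_assoc (bump (η / 2) T) (star x₀),
      ← mul_assoc (star x₀), hxx, hcut, mul_assoc (bump (η / 2) T), hr, hr]
  · have hSe : S * φ ⟨0, hQ⟩ e' = 0 := by
      obtain ⟨Q', rfl⟩ : ∃ Q', Q = Q' + 1 := ⟨Q - 1, by omega⟩
      have hc : Commute (φ ⟨0, hQ⟩ e') (List.ofFn fun i : Fin Q' => φ i.succ s).prod :=
        Commute.list_prod_right _ _ fun z hz => by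
          obtain ⟨i, rfl⟩ := List.mem_ofFn.1 hz
          exact hφ _ _ (fun h => by simp [Fin.ext_iff] at h) _ _
      rw [hSdef, List.ofFn_succ, List.prod_cons, mul_assoc, ← hc.eq, ← mul_assoc,
        show φ (0 : Fin (Q' + 1)) s * φ ⟨0, hQ⟩ e' = 0 from by
          rw [show (⟨0, hQ⟩ : Fin (Q' + 1)) = 0 from rfl, ← map_mul, ← hee, ← mul_assoc, hse,
            zero_mul, map_zero], zero_mul]
    have hTv : T * v = 0 := by
      rw [show T = star S * S from rfl, hv, hAs, ← mul_assoc, mul_assoc (star S) S A, hA,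
        ← mul_assoc S, hSe, zero_mul, mul_zero, zero_mul]
    rw [← hmx, ← mul_assoc, hgT, hgv, mul_assoc gT, ← mul_assoc T, hTv, zero_mul, mul_zero,
      zero_mul]
  · rw [mul_assoc, show bump (η / 2) T * bump (η / 2 / 2) T = bump (η / 2 / 2) T * bump (η / 2) T from
      cfc_commute_cfc _ _ T, hr']
  · have hWA : star W * (W * A) = A := by
      rw [show W = ψ (θ 1 0) from rfl, hA, ← map_star, hθ.star_eq, ← mul_assoc (ψ (θ 1 0)),
        ← (hψ _ _ _).eq, mul_assoc, ← map_mul, ← mul_assoc, ← (hψ _ _ _).eq, mul_assoc, ← map_mul,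
        ← mul_assoc (θ 0 1), hθ.mul_eq, if_pos rfl]
      congr 2
      have h1 := hθ.mul_eq 0 0 0 0
      rw [if_pos rfl] at h1
      rw [← h1, mul_assoc, ← hee, ← mul_assoc (θ 0 0) e, hθe, ← mul_assoc, hθe]
    rw [hgv, ← mul_assoc W, ← mul_assoc (star W), hv, hAs, ← mul_assoc W A A,
      ← mul_assoc (star W), hWA]
  · have he00 : e' * θ 0 0 = e' := by
      have h : θ 0 0 * e' = e' := by rw [← hee, ← mul_assoc, hθe]
      have := congrArg star h
      rwa [star_mul, he, hθ.star_eq] at this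
    have hz : e' * θ 1 0 * e' = 0 := by
      conv_lhs => arg 1; arg 1; rw [← he00]
      rw [mul_assoc e', hθ.mul_eq, if_neg (by decide), mul_zero, zero_mul]
    have hAWA : A * W * A = 0 := by
      rw [hA, show W = ψ (θ 1 0) from rfl, mul_assoc (φ _ e') (ψ e'), ← map_mul,
        mul_assoc, ← mul_assoc (ψ (e' * θ 1 0)), ← (hψ _ _ _).eq, mul_assoc, ← map_mul, hz,
        map_zero, mul_zero, mul_zero]
    rw [show star m = gv' * v from (star_bump ρ v).trans hgv']
    conv_lhs => arg 2; arg 2; rw [hgv]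
    rw [hv, hAs]
    calc gv' * (A * A) * (W * (A * A * gv)) = gv' * (A * (A * W * A) * (A * gv)) := by
          simp only [mul_assoc]
      _ = 0 := by rw [hAWA, mul_zero, zero_mul, mul_zero]
  · rw [← mul_assoc, hEW.eq, mul_assoc, hm]

end

end Vale.Agent.P095.All.Endgame
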